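import Crest.Agent.X212.Rinv39.Ab
import Crest.Agent.X212.Ell97.Main
import Crest.Agent.X212.Nk89.Wt

/-! Row 212, RAD-RINV (helper39): conjugation of an operator of Dirac type by a weight. -/

set_option autoImplicit false
set_option linter.unusedSectionVars false
noncomputable section
open scoped Manifold ContDiff Topology InnerProductSpace
open MeasureTheory Set Function Filter Real

namespace Crest.Agent.X212.Rinv39
open An An.Pre Sob92 Ell97 Nk89

variable {E : Type} [NormedAddCommGroup E] [NormedSpace ℝ E] [FiniteDimensional ℝ E]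
  [MeasurableSpace E] [BorelSpace E]
  {HM : Type} [TopologicalSpace HM] {I : ModelWithCorners ℝ E HM} [I.Boundaryless]
  {M : Type} [TopologicalSpace M] [ChartedSpace HM M] [IsManifold I ∞ M]
  [MeasurableSpace M] {ι : Type} [Fintype ι] {N : Type} [NormedAddCommGroup N] [NormedSpace ℝ N]
  {V W : Type} [NormedAddCommGroup V] [InnerProductSpace ℝ V] [FiniteDimensional ℝ V]
  [NormedAddCommGroup W] [InnerProductSpace ℝ W] [FiniteDimensional ℝ W]
  [T2Space M] [BorelSpace M] [SecondCountableTopology M]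
  {F : Fr I M ι} {A : Op M ι V W} {C C' : ℕ → ℝ} {φ ψ : M → ℝ}

/-- weights -/
structure Wg (F : Fr I M ι) (φ : M → ℝ) : Prop where
  sm : Sm I φ
  cb : ∀ a, F.Cb (F.D a φ)

/-- multiplication by the weight -/
abbrev ew (φ : M → ℝ) (u : M → N) : M → N := fun x => exp (φ x) • u x

theorem Wg.sub (h : Wg F φ) (h' : Wg F ψ) : Wg F (φ - ψ) :=
  ⟨h.sm.sub h'.sm, fun a => by
    have : F.D a (φ - ψ) = F.D a φ - F.D a ψ := funext fun x => dv_sub (md h.sm x) (md h'.sm x)
    rw [this]; exact Cb_sub (h.cb a) (h'.cb a)⟩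

theorem Wg.sm_ew (h : Wg F φ) {u : M → N} (hu : Sm I u) : Sm I (ew φ u) := (sm_exp h.sm).smul hu

theorem Wg.D_ew (h : Wg F φ) {u : M → N} (hu : F.Cb u) (a : ι) :
    ∃ v, F.Cb v ∧ F.D a (ew φ u) = ew φ v :=
  ⟨_, Cb_add (Cb_D hu a) (Cb_smul (h.cb a) hu), D_exp_smul F.toPre h.sm hu.choose_spec.1 a⟩

theorem Wg.Dw_ew (h : Wg F φ) (w : List ι) : ∀ {u : M → N}, F.Cb u →
    ∃ v, F.Cb v ∧ F.Dw w (ew φ u) = ew φ v := by
  induction w with
  | nil => exact fun hu => ⟨_, hu, rfl⟩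
  | cons a w ih =>
    intro u hu
    obtain ⟨v, hv, e⟩ := h.D_ew hu a
    rw [Pre.Dw, e]; exact ih hv

theorem Wg.cb_ew (h : Wg F φ) {c : ℝ} (hc : ∀ x, φ x ≤ c) {u : M → N} (hu : F.Cb u) :
    F.Cb (ew φ u) := by
  have h0 : ∀ {u : M → N}, F.Cb u → ∃ K, ∀ x, ‖ew φ u x‖ ≤ K := fun {u} ⟨K, hK⟩ =>
    ⟨exp c * K 0, fun x => by
      rw [norm_smul, Real.norm_of_nonneg (exp_pos _).le]
      exact mul_le_mul (exp_le_exp.2 (hc x)) (CB_bound (hK.2 0) x) (norm_nonneg _) (exp_pos _).le⟩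
  have h1 : ∀ k, ∀ {u : M → N}, F.Cb u → ∃ K, F.CB k (ew φ u) K := by
    intro k
    induction k with
    | zero => exact fun hu => (h0 hu).imp fun _ hK => CB_zero.2 hK
    | succ k ih =>
      intro u hu
      obtain ⟨K0, hK0⟩ := h0 hu
      choose v hv e using h.D_ew hu
      choose K hK using fun a => ih (hv a)
      have s0 : 0 ≤ ∑ a, |K a| := Finset.sum_nonneg fun _ _ => abs_nonneg _
      refine ⟨|K0| + ∑ a, |K a|, CB_succ.2 ⟨fun x => (hK0 x).trans
        ((le_abs_self _).trans (le_add_of_nonneg_right s0)), fun a => ?_⟩⟩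
      rw [e a]
      exact CB_mono (hK a) ((le_abs_self _).trans ((Finset.single_le_sum (f := fun a => |K a|)
        (fun _ _ => abs_nonneg _) (Finset.mem_univ a)).trans (le_add_of_nonneg_left (abs_nonneg _))))
  choose K hK using fun k => h1 k hu
  exact ⟨K, h.sm_ew hu.choose_spec.1, hK⟩

theorem Wg.cb_exp (h : Wg F φ) {c : ℝ} (hc : ∀ x, φ x ≤ c) : F.Cb fun x => exp (φ x) := by
  have e : (fun x => exp (φ x)) = ew φ fun _ => (1 : ℝ) := funext fun x => (mul_one _).symm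
  rw [e]; exact h.cb_ew hc (Cb_const _)

/-- square integrable weights -/
theorem Wg.FL_ew (h : Wg F φ) (h0 : ∀ {u : M → N}, F.Cb u → MemLp (ew φ u) 2 F.μ) (k : ℕ) :
    ∀ {u : M → N}, F.Cb u → FL F.toPre k (ew φ u) := by
  induction k with
  | zero => exact h0
  | succ k ih =>
    intro u hu
    refine ⟨h0 hu, fun a => ?_⟩
    obtain ⟨v, hv, e⟩ := h.D_ew hu a
    show FL F.toPre k (F.D a (ew φ u))
    rw [e]; exact ih hv

variable (F) in
/-- finite weighted norms -/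
def Wf (φ : M → ℝ) (u : M → N) : Prop := ∀ j, FL F.toPre j (ew φ u)

theorem Wf.mono {u : M → N} (h : Wf F φ u) (hu : Sm I u) (hφ : Wg F φ) (hψ : Wg F ψ) {c : ℝ}
    (hc : ∀ x, ψ x - φ x ≤ c) : Wf F ψ u := fun j => by
  obtain ⟨K, hK⟩ := (hψ.sub hφ).cb_exp hc
  have := (N2_mul (ContinuousLinearMap.lsmul ℝ ℝ) hK.1 (hφ.sm_ew hu) (hK.2 j) (h j)).1
  convert this using 2 with x
  simp [ew, smul_smul, ← exp_add]

theorem Wf.sub {u v : M → N} (h : Wf F φ u) (h' : Wf F φ v) (hφ : Wg F φ) (hu : Sm I u)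
    (hv : Sm I v) : Wf F φ (u - v) := fun j => by
  have h1 := ML.clm F.sm (-ContinuousLinearMap.id ℝ N) (hφ.sm_ew hv) (h' j)
  have := ML.add F.sm (hφ.sm_ew hu) ((hφ.sm_ew hv).neg) (h j) h1
  have e : ew φ (u - v) = ew φ u + fun x => -ew φ v x := funext fun x => by
    simp [ew, sub_eq_add_neg]
  rw [e]; exact this

variable (F A φ) in
/-- `e^φ A e^{-φ}` -/
abbrev cj : Op M ι V W := ⟨A.p, A.q, A.σ, fun x => A.B x - sy F A φ x⟩

theorem Wg.cb_sy (h : Wg F φ) (hA : A.Good F C') : F.Cb (sy F A φ) :=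
  Cb_sum _ fun a _ => Cb_smul (h.cb a) ⟨_, hA.σ a⟩

theorem Wg.good (h : Wg F φ) (hA : A.Good F C') : ∃ C'', (cj F A φ).Good F C'' := by
  obtain ⟨D, hD⟩ := Cb_sub ⟨_, hA.B⟩ (h.cb_sy hA)
  have g := Good_mono hA (C' := fun k => max (C' k) (D k)) fun _ => le_max_left _ _
  refine ⟨_, g.p, g.q, g.σ, CBs_mono hD fun _ => le_max_right _ _, g.σp, g.qσ, fun x v => ?_, g.Pσ⟩
  simp only [sy, _root_.sub_apply, _root_.sum_apply, _root_.smul_apply, map_sub, map_sum, map_smul,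
    hA.qσ, hA.qB]

theorem cliff_cj (hc : A.Cliff F) : (cj F A φ).Cliff F := ⟨hc.1, hc.2⟩

theorem sy_exp {U U' : Type} [NormedAddCommGroup U] [InnerProductSpace ℝ U] [NormedAddCommGroup U']
    [InnerProductSpace ℝ U'] (A : Op M ι U U') (h : Sm I φ) (x : M) :
    sy F A (fun y => exp (φ y)) x = exp (φ x) • sy F A φ x := by
  simp only [sy, D_exp F.toPre h, Finset.smul_sum, smul_smul]

theorem cj_app (u : M → V) (x : M) : (cj F A φ).app F u x = A.app F u x - sy F A φ x (u x) := by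
  simp only [Op.app, Pre.op, _root_.sub_apply]; abel

theorem Wg.app_ew (h : Wg F φ) {u : M → V} (hu : Sm I u) :
    (cj F A φ).app F (ew φ u) = ew φ (A.app F u) := funext fun x => by
  rw [cj_app, app_smul (sm_exp h.sm) hu, sy_exp A h.sm]
  simp [ew]

theorem Wg.adj_ew (h : Wg F φ) (hF : F.Tame C) (hA : A.Good F C') {v : M → W} (hv : Sm I v) :
    (A.adj F).app F (ew φ v) = ew φ (((cj F A φ).adj F).app F v) := funext fun x => by
  obtain ⟨_, g⟩ := good_adj hF hA
  have h1 : ∀ a, A.p x (Op.tr (A.σ a x) (v x)) = Op.tr (A.σ a x) (v x) := fun a => by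
    have := g.qσ a x (v x)
    simpa [Op.adj] using this
  have h2 : Op.tr (A.B x - ∑ a, F.D a φ x • A.σ a x) =
      Op.tr (A.B x) - ∑ a, F.D a φ x • Op.tr (A.σ a x) := by
    simp only [← trL_apply, map_sub, map_sum, map_smul]
  rw [app_smul (sm_exp h.sm) hv, sy_exp _ h.sm, _root_.smul_apply, ← smul_add]
  refine congrArg (exp (φ x) • ·) ?_
  simp only [Op.app, Pre.op, Op.adj, sy, h2, ContinuousLinearMap.comp_apply, _root_.sub_apply,
    _root_.sum_apply, _root_.smul_apply, _root_.neg_apply, map_sub, map_sum, map_smul, h1, smul_neg,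
    Finset.sum_neg_distrib]
  abel

theorem Wg.H_eq (h : Wg F φ) (hA : A.Good F C') : (cj F A φ).H F 0 =
    A.H F 0 - F.mulH 0 A.p A.q (sy F A φ) ∘L F.incl 1 0 A.p :=
  RepT_eq (rep_OpH (h.good hA).choose_spec 0).1 (RepT_sub (rep_OpH hA 0).1
    (RepT_comp (rep_mulH (h.cb_sy hA) (maps_sy hA φ)) (rep_incl zero_le_one)))
    fun u => funext fun x => cj_app u.1 x

/-- small weights give small perturbations -/
theorem exists_small (hA : A.Good F C') {η : ℝ} (hη : 0 < η) : ∃ δ > 0, ∀ φ, Wg F φ →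
    (∀ a x, |F.D a φ x| ≤ δ) → ‖((cj F A φ).H F 0 : F.H 1 A.p →L[ℝ] F.H 0 A.q) - A.H F 0‖ ≤ η := by
  have k0 := cK_nonneg (ι := ι) 0
  set c := cK ι 0 * (Fintype.card ι * |C' 0|) + 1 with hc
  have c0 : 0 < c := by positivity
  refine ⟨η / c, by positivity, fun φ h hd => ?_⟩
  have h1 : F.CB 0 (sy F A φ) (Fintype.card ι * (η / c * |C' 0|)) := CB_zero.2 fun x => by
    refine (norm_sum_le _ _).trans ((Finset.sum_le_sum fun a _ => ?_).trans
      (by rw [Finset.sum_const, Finset.card_univ, nsmul_eq_mul]))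
    rw [norm_smul]
    exact mul_le_mul (hd a x) ((CB_bound ((hA.σ a).2 0) x).trans (le_abs_self _)) (norm_nonneg _)
      (by positivity)
  have h2 := norm_mulH_le (h.cb_sy hA).choose_spec.1 h1 (maps_sy hA φ)
  rw [h.H_eq hA, sub_sub_cancel_left, norm_neg]
  refine ((ContinuousLinearMap.opNorm_comp_le _ _).trans (mul_le_mul h2
    (rep_incl' zero_le_one).2 (norm_nonneg _) (by positivity))).trans ?_
  rw [mul_one, abs_of_nonneg (by positivity), show cK ι 0 * (Fintype.card ι * (η / c * |C' 0|)) =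
    η * ((c - 1) / c) by rw [hc]; field_simp; ring]
  exact mul_le_of_le_one_right hη.le ((div_le_one c0).2 (by linarith))

theorem Wg.H_smul (h : Wg F φ) (hA : A.Good F C') {c : ℝ} (hc : ∀ x, φ x ≤ c) (x : F.H 1 A.p) :
    (cj F A φ).H F 0 (smulH F.toPre 1 A.p (fun y => exp (φ y)) x) =
      smulH F.toPre 0 A.q (fun y => exp (φ y)) (A.H F 0 x) :=
  DFunLike.congr_fun (RepT_eq (RepT_comp (rep_OpH (h.good hA).choose_spec 0).1
    (rep_smulH (h.cb_exp hc))) (RepT_comp (rep_smulH (h.cb_exp hc)) (rep_OpH hA 0).1)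
    fun u => h.app_ew u.2.1) x

theorem ae_cont {u v : M → N} (hu : Continuous u) (hv : Continuous v) (h : u =ᵐ[F.μ] v) : u = v :=
  have := openPos F.toPre
  (Continuous.ae_eq_iff_eq F.μ hu hv).1 h

theorem is_app (hA : A.Good F C') {k : ℕ} {x : F.H (k + 1) A.p} {u : M → V}
    (H : Is F.toPre (k + 1) A.p x u) (hu : Sm I u) : Is F.toPre k A.q (A.H F k x) (A.app F u) :=
  have := FiniteDimensional.complete ℝ V
  have := FiniteDimensional.complete ℝ W
  H.opH (fun a => ⟨_, hA.σ a⟩) ⟨_, hA.B⟩ hA.qσ (Maps.of_left hA.qB) hu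

/-- solutions with a right hand side in all levels -/
theorem solve (hF : F.Tame C) (hA : A.Good F C') (hc : A.CliffL F) {x : F.H 1 A.p} {h : M → W}
    (hs : Sm I h) (hL : ∀ j, FL F.toPre j h) (hq : ∀ y, A.q y (h y) = h y)
    (H : Is F.toPre 0 A.q (A.H F 0 x) h) : ∃ u : M → V, F.Cb u ∧ (∀ j, FL F.toPre j u) ∧
      (∀ y, A.p y (u y) = u y) ∧ Is F.toPre 1 A.p x u ∧ A.app F u = h := by
  have := FiniteDimensional.complete ℝ V
  have := FiniteDimensional.complete ℝ W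
  obtain ⟨u, h1, h2, h3, h4⟩ := smooth_of_all hF (reg_all hF hA hc (k := 0) (x := x) fun j hj =>
    (H.lift (Exh.of_tame hF) hs hq hj (hL j)).imp fun _ e => e.1)
  exact ⟨u, h1, h2, h3, h4, ae_cont (sm_app hA h1.choose_spec.1).continuous hs.continuous
    ((is_app hA h4 h1.choose_spec.1).symm.trans H)⟩

end Crest.Agent.X212.Rinv39
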