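import Crest.Agent.X212.Rinv39.Core
import Crest.Agent.X212.Ulc97.Geo

/-! Row 212, RAD-RINV (helper39): radial weights and weighted norms. -/

set_option autoImplicit false
set_option linter.unusedSectionVars false
noncomputable section
open scoped Manifold ContDiff Topology InnerProductSpace
open MeasureTheory Set Function Filter Real

namespace Crest.Agent.X212.Rinv39
open An Sob92 Ell97 Rad94 Ulc97
open Nd18 (BD fl fl_le fl_ge contDiff_fl bd_dfl)
open M (Mf)

/-! ### one variable -/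

/-- zero below `R`, `τ - R` above `R + 1` -/
def rh (R τ : ℝ) : ℝ := τ - R - fl (τ - R)

section rh
variable {R τ : ℝ}

theorem rh_zero (h : τ ≤ R) : rh R τ = 0 := by rw [rh, fl_le (by linarith), sub_self]

theorem rh_mem (R τ : ℝ) : 0 ≤ rh R τ ∧ rh R τ ≤ max (τ - R) 0 ∧ τ - R - 1 ≤ rh R τ := by
  have h0 : 0 ≤ rh R τ ∧ rh R τ ≤ max (τ - R) 0 := by
    rcases le_total τ R with h | h
    · rw [rh_zero h]; exact ⟨le_rfl, le_max_right _ _⟩
    · have e : rh R τ = (τ - R) * Real.smoothTransition (2 * (τ - R) - 1) := by rw [rh, fl]; ring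
      have h1 := sub_nonneg.2 h
      rw [e]
      exact ⟨mul_nonneg h1 (Real.smoothTransition.nonneg _),
        (mul_le_of_le_one_right h1 (Real.smoothTransition.le_one _)).trans (le_max_left _ _)⟩
  refine ⟨h0.1, h0.2, ?_⟩
  rcases le_total 1 (τ - R) with h | h
  · rw [rh, fl_ge h]; linarith
  · linarith [h0.1]

theorem sm_rh (R : ℝ) : ContDiff ℝ ∞ (rh R) :=
  (contDiff_id.sub contDiff_const).sub (contDiff_fl.comp (contDiff_id.sub contDiff_const))

theorem bd_rh : ∃ C, ∀ R, BD (deriv (rh R)) C := by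
  obtain ⟨C, hC⟩ := bd_dfl
  have e : ∀ R, deriv (rh R) = fun t => 1 + (-1) * deriv fl (t + -R) := fun R => funext fun t => by
    have h1 : HasDerivAt fl (deriv fl (t - R)) (t - R) :=
      (contDiff_fl.differentiable (by simp) _).hasDerivAt
    have h2 := ((hasDerivAt_id t).sub_const R).sub (h1.comp_sub_const t R)
    rw [show deriv (rh R) t = _ from h2.deriv, ← sub_eq_add_neg t]; ring
  exact ⟨_, fun R => e R ▸ (BD.const 1).add ((BD.const (-1)).mul (hC.shift (-R)))⟩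

end rh

theorem sum_exp {a : ℝ} (ha : 0 < a) :
    ∃ Z ≥ 0, ∀ m n : ℕ, ∑ i ∈ Finset.range n, exp (-a * |(i : ℝ) - m|) ≤ Z := by
  have h0 : Summable fun n : ℕ => exp (-a * n) := by
    simpa only [mul_comm] using summable_exp_nat_mul_iff.2 (neg_lt_zero.2 ha)
  have h1 : Summable fun z : ℤ => exp (-a * |(z : ℝ)|) :=
    Summable.of_nat_of_neg (by simpa using h0) (by simpa using h0)
  refine ⟨∑' z : ℤ, exp (-a * |(z : ℝ)|), tsum_nonneg fun z => (exp_pos _).le, fun m n => ?_⟩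
  have h2 := h1.sum_le_tsum ((Finset.range n).image fun i : ℕ => (i : ℤ) - m)
    fun _ _ => (exp_pos _).le
  rw [Finset.sum_image fun i _ j _ e => by omega] at h2
  simpa using h2

theorem one_dim {a : ℝ} (ha : 0 < a) : ∃ Z ≥ 0, ∀ (h : ℝ → ℝ) (m : ℕ) (b : ℝ), 0 ≤ b →
    ContinuousOn h (Ici 0) → (∀ t ≥ 0, 0 ≤ h t) →
    (∀ i : ℕ, ∫ t in Icc (i : ℝ) (i + 1), h t ≤ b * exp (-a * |(i : ℝ) - m|)) →
    IntegrableOn h (Ioi 0) ∧ ∫ t in Ioi 0, h t ≤ Z * b := by
  obtain ⟨Z, hZ, h1⟩ := sum_exp ha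
  refine ⟨Z, hZ, fun h m b hb hc h0 hi => ?_⟩
  have i1 : ∀ x y : ℝ, 0 ≤ x → x ≤ y → IntervalIntegrable h volume x y := fun x y hx hy =>
    (hc.mono (by rw [uIcc_of_le hy]; exact fun t ht => hx.trans ht.1)).intervalIntegrable
  have h2 : ∀ n : ℕ, ∫ t in (0 : ℝ)..n, h t ≤ Z * b := fun n => by
    have := intervalIntegral.sum_integral_adjacent_intervals (f := h) (μ := volume)
      (a := fun i : ℕ => (i : ℝ)) (n := n) fun i _ => i1 _ _ (Nat.cast_nonneg _) (by simp)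
    rw [Nat.cast_zero] at this
    rw [← this, mul_comm]
    refine (Finset.sum_le_sum fun i _ => ?_).trans ((Finset.mul_sum _ _ b).symm.trans_le
      (mul_le_mul_of_nonneg_left (h1 m n) hb))
    rw [Nat.cast_succ, intervalIntegral.integral_of_le (by simp), ← integral_Icc_eq_integral_Ioc]
    exact hi i
  have i2 : IntegrableOn h (Ioi 0) := integrableOn_Ioi_of_intervalIntegral_norm_bounded (Z * b) 0
    (fun n : ℕ => (i1 0 n le_rfl (Nat.cast_nonneg _)).1) tendsto_natCast_atTop_atTop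
    (Eventually.of_forall fun n => le_trans (le_of_eq (intervalIntegral.integral_congr fun t ht =>
      Real.norm_of_nonneg (h0 t (by rw [uIcc_of_le (Nat.cast_nonneg _)] at ht; exact ht.1))))
      (h2 n))
  exact ⟨i2, le_of_tendsto' (intervalIntegral_tendsto_integral_Ioi 0 i2
    tendsto_natCast_atTop_atTop) h2⟩

/-! ### weights -/

variable {κ lam A : Type} [Fintype κ] [Fintype lam] [Fintype A] {X : Mf 4}
  {N : Type} [NormedAddCommGroup N] [InnerProductSpace ℝ N] {g : Gm X κ lam A} {s : A}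
  {c : A → ℝ → ℝ} {t τ R R' : ℝ} {α β : A → ℝ} {f : X.M → N}

variable (g) in
/-- the weight of a constant and a radial function -/
def ph (t : ℝ) (c : A → ℝ → ℝ) (x : X.M) : ℝ := t + g.rd c x

/-- the radial functions -/
def cw (R R' : ℝ) (α β : A → ℝ) (s : A) (τ : ℝ) : ℝ := α s * rh R τ + β s * rh R' τ

theorem cw_zero (h : R ≤ R') (hτ : τ ≤ R) : cw R R' α β s τ = 0 := by
  simp [cw, rh_zero hτ, rh_zero (hτ.trans h)]

theorem rd_cw (h0 : 0 ≤ R) (h : R ≤ R') : Rd (cw R R' α β) := fun _ =>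
  ⟨(contDiff_const.mul (sm_rh R)).add (contDiff_const.mul (sm_rh R')),
    fun _ hτ => cw_zero h (hτ.trans h0)⟩

theorem deriv_cw : deriv (cw R R' α β s) =
    fun τ => α s * deriv (rh R) τ + β s * deriv (rh R') τ := funext fun τ =>
  ((((sm_rh R).differentiable (by simp) τ).hasDerivAt.const_mul _).add
    (((sm_rh R').differentiable (by simp) τ).hasDerivAt.const_mul _)).deriv

theorem ph_cor (h : R ≤ R') {x : X.M} (hx : x ∈ g.cor R) : ph g t (cw R R' α β) x = t := by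
  simp [ph, Gm.rd, fun s => cw_zero (α := α) (β := β) (s := s) h (hx s)]

theorem sm_ph (h : Rd c) : Sm X.I (ph g t c) := contMDiff_const.add (sm_rd h)

theorem D_ph (h : Rd c) (a : Option κ) : g.F.D a (ph g t c) = g.F.D a (g.rd c) := by
  rw [show ph g t c = (fun _ => t) + g.rd c from rfl, g.F.D_add contMDiff_const (sm_rd h),
    Pre.D_def, dv_const, zero_add]

theorem wg_cw (h0 : 0 ≤ R) (h : R ≤ R') : Wg g.F (ph g t (cw R R' α β)) := by
  obtain ⟨C, hC⟩ := bd_rh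
  have r := rd_cw (α := α) (β := β) h0 h
  refine ⟨sm_ph r, fun a => ?_⟩
  rw [D_ph r]
  cases a with
  | none =>
    rw [D_rd_none r]
    refine Cb_rd (Rd.deriv r _) fun s => ?_
    rw [deriv_cw]
    exact ⟨_, (BD.const _).mul (((BD.const _).mul (hC R)).add ((BD.const _).mul (hC R')))⟩
  | some a => rw [D_rd_some r]; exact Cb_const 0

variable (g) in
theorem exists_e {δ : ℝ} (hδ : 0 < δ) : ∃ e > 0, ∀ (R R' t : ℝ) (α β : A → ℝ), 0 ≤ R → R ≤ R' →
    (∀ s, |α s| + |β s| ≤ 3 * e) → ∀ a x, |g.F.D a (ph g t (cw R R' α β)) x| ≤ δ := by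
  obtain ⟨C, hC⟩ := bd_rh
  have c0 := (hC 0).nonneg 0
  have c1 : ∀ R τ, |deriv (rh R) τ| ≤ C 0 := fun R τ => by simpa using (hC R).2 0 0 le_rfl τ
  set b := Fintype.card A * (3 * C 0) + 1 with hb
  have b0 : 0 < b := by positivity
  refine ⟨δ / b, by positivity, fun R R' t α β h0 h he a x => ?_⟩
  have r := rd_cw (α := α) (β := β) h0 h
  rw [D_ph r]
  cases a with
  | some a => rw [D_rd_some r]; simpa using hδ.le
  | none =>
    rw [D_rd_none r, Gm.rd]
    refine (Finset.abs_sum_le_sum_abs _ _).trans ((Finset.sum_le_sum (g := fun _ => 3 * (δ / b) * C 0)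
      fun s _ => ?_).trans ?_)
    · rw [abs_mul, abs_sg, one_mul, deriv_cw]
      refine (abs_add_le _ _).trans (le_trans ?_ (mul_le_mul_of_nonneg_right (he s) c0))
      rw [abs_mul, abs_mul, add_mul]
      exact add_le_add (mul_le_mul_of_nonneg_left (c1 _ _) (abs_nonneg _))
        (mul_le_mul_of_nonneg_left (c1 _ _) (abs_nonneg _))
    · rw [Finset.sum_const, Finset.card_univ, nsmul_eq_mul, show Fintype.card A * (3 * (δ / b) * C 0) =
        δ * ((b - 1) / b) by rw [hb]; field_simp; ring]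
      exact mul_le_of_le_one_right hδ.le ((div_le_one b0).2 (by linarith))

variable (g) in
theorem exists_R {K : Set X.M} (hK : IsCompact K) : ∃ R, 1 ≤ R ∧ K ⊆ g.cor R := by
  choose b hb using fun s => hK.exists_bound_of_continuousOn (cont_ht g s).continuousOn
  have h0 : 0 ≤ ∑ s, |b s| := Finset.sum_nonneg fun _ _ => abs_nonneg _
  refine ⟨1 + ∑ s, |b s|, by linarith, fun x hx s => ?_⟩
  have h1 := Finset.single_le_sum (f := fun s => |b s|) (fun _ _ => abs_nonneg _) (Finset.mem_univ s)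
  linarith [le_abs_self (b s), le_abs_self (g.ht s x), show |g.ht s x| ≤ b s from hb s x hx]

/-! ### weighted norms -/

theorem sq_ew (φ : X.M → ℝ) (f : X.M → N) (x : X.M) :
    ‖ew φ f x‖ ^ 2 = exp (2 * φ x) * ‖f x‖ ^ 2 := by
  rw [norm_smul, mul_pow, Real.norm_of_nonneg (exp_pos _).le, two_mul, exp_add, sq]

theorem n2_ew (hg : g.OK) (h : Rd c) (hτ : -1 < τ) :
    g.n2 s (ew (ph g t c) f) τ = exp (2 * (t + c s τ)) * g.n2 s f τ := by
  simp only [Gm.n2, sq_ew, ph, rd_pt hg h hτ, integral_const_mul]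

theorem cont_sq (hf : Continuous f) : Continuous fun x => ‖f x‖ ^ 2 := hf.norm.pow 2

theorem cont_n2 (hf : Continuous f) : ContinuousOn (g.n2 s f) (Ioi (-1)) := contOn_sl (cont_sq hf)

theorem int_n2 (hf : Continuous f) (h : -1 < τ) (b : ℝ) : IntegrableOn (g.n2 s f) (Icc τ b) :=
  intOn_sl h (cont_sq hf) b

theorem cont_ew (h : Rd c) (hf : Continuous f) : Continuous (ew (ph g t c) f) :=
  (sm_ph h).continuous.rexp.smul hf

theorem memLp_iff (hg : g.OK) (hf : Continuous f) :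
    MemLp f 2 g.F.μ ↔ ∀ s, IntegrableOn (g.n2 s f) (Ioi 0) := by
  rw [memLp_two_iff_integrable_sq_norm hf.aestronglyMeasurable,
    integrable_iff hg (T := 0) (by norm_num) (cont_sq hf)]
  simp only [n2_eq, norm_pow, norm_norm]

theorem nrm_sq_eq (hg : g.OK) (hf : Continuous f) (hL : MemLp f 2 g.F.μ) :
    g.F.nrm 0 f ^ 2 = g.q0 f + ∑ s, ∫ τ in Ioi 0, g.n2 s f τ := by
  rw [nrm_sq]
  exact int_all hg (T := 0) (by norm_num) (cont_sq hf) (int_sq hL)

theorem q0_ew (h : Rd c) : g.q0 (ew (ph g t c) f) = exp (2 * t) * g.q0 f := by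
  rw [Gm.q0, Gm.q0, ← integral_const_mul]
  exact setIntegral_congr_fun (isClosed_cor g 0).measurableSet fun x hx => by
    simp only [sq_ew, ph, rd_cor h hx, add_zero]

theorem nS_sq (S : Set X.M) (f : X.M → N) : nS g.F.toPre S 0 f ^ 2 = ∫ x in S, ‖f x‖ ^ 2 ∂g.F.μ :=
  Real.sq_sqrt (n2_nonneg 0 f)

theorem ul_nn {k : ℕ} {r : ℝ} (h : g.Ul k f r) : 0 ≤ r := (nS_nonneg f).trans h.1

variable (g) in
/-- **Uniformly local bounds give weighted bounds.** -/
theorem ul_wt (hg : g.OK) {e : ℝ} (he : 0 < e) (K : ℝ) : ∃ Z ≥ 0, ∀ (c : A → ℝ → ℝ) (t : ℝ)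
    (m : A → ℕ), Rd c → t ≤ K → (∀ s τ, 0 ≤ τ → t + c s τ ≤ K - e * |τ - m s|) →
    ∀ (f : X.M → N) r, Continuous f → g.Ul 0 f r →
      MemLp (ew (ph g t c) f) 2 g.F.μ ∧ g.F.nrm 0 (ew (ph g t c) f) ≤ Z * r := by
  obtain ⟨Z, hZ, h1⟩ := one_dim (mul_pos two_pos he)
  set b := exp (2 * K) + Fintype.card A * (Z * exp (2 * K + 2 * e)) with hb
  have b0 : 0 ≤ b := by positivity
  refine ⟨√b, sqrt_nonneg _, fun c t m hc ht hm f r hf hr => ?_⟩
  have cf := cont_ew (g := g) (t := t) hc hf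
  have h2 := fun s => h1 (g.n2 s (ew (ph g t c) f)) (m s) (exp (2 * K + 2 * e) * r ^ 2)
    (by positivity) ((cont_n2 cf).mono fun x hx => mem_Ioi.2 (neg_one_lt_zero.trans_le hx))
    (fun τ _ => n2_nn _ τ) fun i => by
      have i0 : (0 : ℝ) ≤ i := Nat.cast_nonneg i
      have i1 : (-1 : ℝ) < i := by linarith
      have a1 : ∫ τ in Icc (i : ℝ) (i + 1), g.n2 s f τ ≤ r ^ 2 := by
        rw [n2_eq, ← int_Icc i1 (cont_sq hf), ← nS_sq]
        exact pow_le_pow_left₀ (nS_nonneg f) (hr.2 s i i0) 2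
      refine le_trans ?_ ((mul_le_mul_of_nonneg_left a1 (exp_pos
        (2 * K + 2 * e + -(2 * e) * |(i : ℝ) - m s|)).le).trans_eq (by rw [exp_add _ (_ * _)]; ring))
      rw [← integral_const_mul]
      refine setIntegral_mono_on (int_n2 cf i1 _) ((int_n2 hf i1 _).const_mul _)
        measurableSet_Icc fun τ hτ => ?_
      rw [n2_ew hg hc (i1.trans_le hτ.1)]
      refine mul_le_mul_of_nonneg_right (exp_le_exp.2 ?_) (n2_nn _ _)
      have a2 := hm s τ (i0.trans hτ.1)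
      have a3 : |(i : ℝ) - m s| ≤ |τ - m s| + 1 := by
        have := abs_sub_le (i : ℝ) τ (m s)
        have : |(i : ℝ) - τ| ≤ 1 := abs_le.2 ⟨by linarith [hτ.2], by linarith [hτ.1]⟩
        linarith
      nlinarith
  have h3 := (memLp_iff hg cf).2 fun s => (h2 s).1
  refine ⟨h3, abs_le_of_sq_le_sq' ?_ (mul_nonneg (sqrt_nonneg _) (ul_nn hr)) |>.2⟩
  have h4 : g.q0 f ≤ r ^ 2 := by
    refine le_trans ?_ (pow_le_pow_left₀ (nS_nonneg f) hr.1 2)
    rw [nS_sq]
    exact setIntegral_mono_set ((cont_sq hf).continuousOn.integrableOn_compact (hg.cpt 1))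
      (Eventually.of_forall fun _ => sq_nonneg _) (cor_mono zero_le_one).eventuallyLE
  have h5 : 0 ≤ g.q0 f := integral_nonneg fun _ => sq_nonneg _
  rw [nrm_sq_eq hg cf h3, q0_ew hc, mul_pow, sq_sqrt b0, hb, add_mul]
  refine add_le_add (mul_le_mul (exp_le_exp.2 (by linarith)) h4 h5 (exp_pos _).le)
    ((Finset.sum_le_sum fun s _ => (h2 s).2).trans_eq ?_)
  rw [Finset.sum_const, Finset.card_univ, nsmul_eq_mul]; ring

/-- local norms from weighted norms -/
theorem nS_le {φ : X.M → ℝ} {S : Set X.M} (hS : MeasurableSet S) {b : ℝ} (hb : ∀ x ∈ S, -b ≤ φ x)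
    (hL : MemLp (ew φ f) 2 g.F.μ) : nS g.F.toPre S 0 f ≤ exp b * g.F.nrm 0 (ew φ f) := by
  refine (abs_le_of_sq_le_sq' ?_ (mul_nonneg (exp_pos _).le (nrm_nonneg _ _))).2
  rw [nS_sq, mul_pow, nrm_sq]
  refine le_trans ?_ (mul_le_mul_of_nonneg_left (setIntegral_le_integral (s := S) (int_sq hL)
    (Eventually.of_forall fun _ => sq_nonneg _)) (sq_nonneg _))
  rw [← integral_const_mul]
  refine integral_mono_of_nonneg (Eventually.of_forall fun _ => sq_nonneg _)
    ((int_sq hL).integrableOn.const_mul _) ((ae_restrict_mem hS).mono fun x hx => ?_)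
  show _ ≤ exp b ^ 2 * ‖ew φ f x‖ ^ 2
  rw [sq_ew, ← mul_assoc, sq (exp b), ← exp_add, ← exp_add]
  exact le_mul_of_one_le_left (sq_nonneg _) (one_le_exp (by linarith [hb x hx]))

theorem Q_le (hg : g.OK) (h : Rd c) {e : ℝ} (hc : ∀ s τ, 0 ≤ τ → -e * τ ≤ c s τ)
    (hf : Continuous f) (hL : MemLp (ew (ph g 0 c) f) 2 g.F.μ) :
    g.Q (fun _ => e) f ≤ g.F.nrm 0 (ew (ph g 0 c) f) ^ 2 := by
  rw [nrm_sq_eq hg (cont_ew h hf) hL, q0_ew h, mul_zero, exp_zero, one_mul]
  refine add_le_add le_rfl (Finset.sum_le_sum fun s _ => integral_mono_of_nonneg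
    (Eventually.of_forall fun τ => mul_nonneg (n2_nn _ _) (exp_pos _).le)
    ((memLp_iff hg (cont_ew h hf)).1 hL s) ((ae_restrict_mem measurableSet_Ioi).mono fun τ hτ => ?_))
  show g.n2 s f τ * _ ≤ _
  rw [n2_ew hg h (lt_trans (by norm_num) hτ), mul_comm]
  exact mul_le_mul_of_nonneg_right (exp_le_exp.2 (by linarith [hc s τ (le_of_lt hτ)])) (n2_nn _ _)

theorem le_Q (hg : g.OK) (h : Rd c) {e K : ℝ} (K0 : 0 ≤ K) (hc : ∀ s τ, 0 ≤ τ → c s τ ≤ K - e * τ)
    (hf : Continuous f) (hL : MemLp (ew (ph g 0 c) f) 2 g.F.μ) (hi : g.Fi (fun _ => e) f) :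
    g.F.nrm 0 (ew (ph g 0 c) f) ^ 2 ≤ exp (2 * K) * g.Q (fun _ => e) f := by
  rw [nrm_sq_eq hg (cont_ew h hf) hL, q0_ew h, Gm.Q, mul_add, Finset.mul_sum]
  refine add_le_add (mul_le_mul_of_nonneg_right (exp_le_exp.2 (by linarith))
    (integral_nonneg fun _ => sq_nonneg _)) (Finset.sum_le_sum fun s _ => ?_)
  rw [← integral_const_mul]
  refine integral_mono_of_nonneg (Eventually.of_forall fun τ => n2_nn _ _) ((hi s).const_mul _)
    ((ae_restrict_mem measurableSet_Ioi).mono fun τ hτ => ?_)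
  show _ ≤ exp (2 * K) * (g.n2 s f τ * _)
  rw [n2_ew hg h (lt_trans (by norm_num) hτ), mul_comm (g.n2 s f τ), ← mul_assoc, ← exp_add]
  exact mul_le_mul_of_nonneg_right (exp_le_exp.2 (by linarith [hc s τ (le_of_lt hτ)])) (n2_nn _ _)

/-- a square integrable function for a growing weight decays -/
theorem fi_of (hg : g.OK) (h : Rd c) {c' : A → ℝ → ℝ} (h' : Rd c') {e K : ℝ}
    (hc : ∀ s τ, 0 ≤ τ → c s τ + e * τ ≤ K + c' s τ) (hf : Continuous f)
    (hL : MemLp (ew (ph g 0 c') f) 2 g.F.μ) : g.Fi (fun _ => -e) (ew (ph g 0 c) f) := fun s => by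
  refine Integrable.mono' (((memLp_iff hg (cont_ew h' hf)).1 hL s).const_mul (exp (2 * K)))
    (ContinuousOn.aestronglyMeasurable (((cont_n2 (cont_ew h hf)).mono
      (Ioi_subset_Ioi (by norm_num))).mul (by fun_prop)) measurableSet_Ioi)
    ((ae_restrict_mem measurableSet_Ioi).mono fun τ hτ => ?_)
  have h1 : -1 < τ := lt_trans (by norm_num) hτ
  rw [Real.norm_of_nonneg (mul_nonneg (n2_nn _ _) (exp_pos _).le), n2_ew hg h h1, n2_ew hg h' h1,
    mul_right_comm, ← mul_assoc, ← exp_add, ← exp_add]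
  exact mul_le_mul_of_nonneg_right (exp_le_exp.2 (by linarith [hc s τ (le_of_lt hτ)])) (n2_nn _ _)

end Crest.Agent.X212.Rinv39
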