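import Crest.Agent.X212.Rinv39.Rd

/-! Row 212, RAD-RINV (helper39): the right inverse modulo the columns, `RinvStmt`. -/

set_option autoImplicit false
set_option linter.unusedSectionVars false
noncomputable section
open scoped Manifold ContDiff Topology InnerProductSpace
open MeasureTheory Set Function Filter Real

namespace Crest.Agent.X212.Rinv39
open An Sob92 Ell97 Rad94 Ulc97
open M (Mf)

variable {κ lam A : Type} [Fintype κ] [Fintype lam] [Fintype A] {X : Mf 4} {g : Gm X κ lam A}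
  {V W : Type} [NormedAddCommGroup V] [InnerProductSpace ℝ V] [FiniteDimensional ℝ V]
  [NormedAddCommGroup W] [InnerProductSpace ℝ W] [FiniteDimensional ℝ W]
  {L : Lop g V W} {k : ℕ} {R R' e K t : ℝ} {α β : A → ℝ}

/-- the weight `a ρ` on all ends -/
abbrev c1 (A : Type) (R a : ℝ) : A → ℝ → ℝ := cw R R (fun _ => a) fun _ => 0

theorem c1_eq (a : ℝ) (s : A) (τ : ℝ) : c1 A R a s τ = a * rh R τ := by simp [cw]

theorem c1_eq' (a : ℝ) (s : A) (τ : ℝ) : cw R R (fun _ => a) (fun _ => 0) s τ = a * rh R τ :=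
  c1_eq a s τ

theorem c1_le (he : 0 ≤ e) (s : A) (τ : ℝ) : c1 A R (-e) s τ ≤ e * (R + 1) - e * τ := by
  rw [c1_eq]; nlinarith [(rh_mem R τ).2.2]

theorem ph_le {c c' : A → ℝ → ℝ} {t t' b : ℝ} (h : ∀ s τ, c s τ - c' s τ ≤ b) (x : X.M) :
    ph g t c x - ph g t' c' x ≤ t - t' + Fintype.card A * b := by
  have := Finset.sum_le_sum fun s (_ : s ∈ Finset.univ) => h s (g.ht s x)
  rw [Finset.sum_sub_distrib, Finset.sum_const, Finset.card_univ, nsmul_eq_mul] at this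
  simp only [ph, Gm.rd]; linarith

/-- bounded functions have finite norms for decaying weights -/
theorem wf_cb (hg : g.OK) (hU : g.UlC) (h0 : 0 ≤ R) (h : R ≤ R') (he : 0 < e) (m : A → ℕ)
    (ht : t ≤ K) (hm : ∀ s τ, 0 ≤ τ → t + cw R R' α β s τ ≤ K - e * |τ - m s|) {f : X.M → W}
    (hf : g.F.Cb f) : Wf g.F (ph g t (cw R R' α β)) f := fun j => by
  obtain ⟨Z, -, hZ⟩ := ul_wt (N := W) g hg he K
  obtain ⟨C, hC⟩ := hU.cb W 0
  exact (wg_cw h0 h).FL_ew (fun ⟨D, hD⟩ => (hZ _ t m (rd_cw h0 h) ht hm _ _ hD.1.continuous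
    (hC _ _ hD.1 (hD.2 0))).1) j hf

theorem c1_dec (he : 0 ≤ e) (s : A) (τ : ℝ) (hτ : 0 ≤ τ) :
    0 + c1 A R (-e) s τ ≤ e * (R + 1) - e * |τ - (0 : ℕ)| := by
  rw [zero_add, Nat.cast_zero, sub_zero, abs_of_nonneg hτ]; exact c1_le he s τ

theorem wf_c1 (hg : g.OK) (hU : g.UlC) (h0 : 0 ≤ R) (he : 0 < e) {f : X.M → W} (hf : g.F.Cb f) :
    Wf g.F (ph g 0 (c1 A R (-e))) f :=
  wf_cb hg hU h0 le_rfl he (fun _ => 0) (by positivity) (c1_dec he.le) hf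

theorem T_zero (L : Lop g V W) : L.T 0 = L.A.H g.F 0 := by
  have e : (L.sh 0).B = L.A.B := funext fun x => by simp [Lop.sh, Lop.ms, Gm.rd]
  show g.F.opH 0 L.A.p L.A.q L.A.σ (L.sh 0).B = g.F.opH 0 L.A.p L.A.q L.A.σ L.A.B
  rw [e]

theorem off_supp {ι : Type} [Finite ι] {N : Type} [NormedAddCommGroup N] (g : Gm X κ lam A)
    {u : ι → X.M → N} (h : ∀ i, HasCompactSupport (u i)) :
    ∃ R, 1 ≤ R ∧ ∀ x ∉ g.cor R, ∀ i, u i x = 0 := by
  obtain ⟨R, h1, h2⟩ := exists_R g (isCompact_iUnion h)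
  exact ⟨R, h1, fun x hx i => image_eq_zero_of_notMem_tsupport fun e =>
    hx (h2 (mem_iUnion.2 ⟨i, e⟩))⟩

theorem surj_L (hL : L.OK) (hU : g.UlC) (hT : (L.A.H g.F 0).IsFredholm)
    (ϖ : Fin k → Sec X.I L.A.q)
    (hv : ∀ v, Sc L.A.q v → g.F.Cb v →
      (∃ ε > 0, ∀ w : List (Option κ), g.Fi (fun _ => -ε) (g.F.Dw w v)) →
      (L.A.adj g.F).app g.F v = 0 → (∀ i, g.F.ip 0 v (ϖ i).1 = 0) → v = 0) :
    Surjective (TT g.F ϖ (L.A.H g.F 0)) := by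
  obtain ⟨δ, hδ, h1⟩ := surj hL.gm.tame.choose_spec hL.good.choose_spec hL.cl ϖ hT
  obtain ⟨e, he, h2⟩ := exists_e g hδ
  obtain ⟨R, hR, h3⟩ := off_supp g fun i => (ϖ i).2.2.1
  have h0 : 0 ≤ R := by linarith
  have w := wg_cw (g := g) (t := 0) (α := fun _ => -e) (β := fun _ => 0) h0 le_rfl
  have h4 : ∀ x, ph g 0 (c1 A R (-e)) x ≤ 0 := fun x => by
    simpa [ph, Gm.rd] using ph_le (g := g) (t := 0) (t' := 0) (c := c1 A R (-e)) (c' := 0) (b := 0)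
      (fun s τ => by rw [c1_eq]; simpa using mul_nonneg he.le (rh_mem R τ).1) x
  refine h1 _ w (h2 R R 0 _ _ h0 le_rfl fun s => by simp [abs_of_pos he]; linarith) h4
    (fun x hx => h3 x fun e => hx (ph_cor le_rfl e)) fun v s1 s2 => hv _
      ⟨w.sm_ew s1.choose_spec.1, fun x => (map_smul (L.A.q x) _ _).trans (by rw [s2])⟩
      (w.cb_ew h4 s1) ⟨e / 2, by positivity, fun l => ?_⟩
  obtain ⟨v', s3, s4⟩ := w.Dw_ew l s1
  rw [s4]
  refine fi_of hL.gm (rd_cw h0 le_rfl) (rd_cw (α := fun _ => -(e / 2)) (β := fun _ => 0) h0 le_rfl)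
    (K := e / 2 * (R + 1)) (fun s τ _ => ?_) s3.choose_spec.1.continuous
    (wf_c1 hL.gm hU h0 (half_pos he) s3 0)
  rw [c1_eq', c1_eq']; nlinarith [(rh_mem R τ).2.2]

variable (L) in
/-- the solution operator with its estimates for all admissible weights -/
structure Pk (ϖ : Fin k → X.M → W) (R e K : ℝ) (G : (X.M → W) → X.M → V)
    (S : (X.M → W) → Fin k → ℝ) : Prop where
  R1 : 1 ≤ R
  e0 : 0 < e
  K0 : 0 < K
  sc : ∀ f, Sc L.A.q f → g.F.Cb f → Sc L.A.p (G f)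
  eq : ∀ f, Sc L.A.q f → g.F.Cb f → ∀ x, L.A.app g.F (G f) x - ∑ i, S f i • ϖ i x = f x
  sub : ∀ f f', Sc L.A.q f → g.F.Cb f → Sc L.A.q f' → g.F.Cb f' →
    G (f - f') = G f - G f' ∧ S (f - f') = S f - S f'
  cmp : ∀ (R' t : ℝ) (α β : A → ℝ) (b : ℝ), R ≤ R' → (∀ s, |α s| + |β s| ≤ 3 * e) →
    (∀ s τ, c1 A R (-e) s τ - cw R R' α β s τ ≤ b) → ∀ f, Sc L.A.q f → g.F.Cb f →
    Wf g.F (ph g t (cw R R' α β)) f → Wf g.F (ph g t (cw R R' α β)) (G f) ∧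
      g.F.Cb (ew (ph g t (cw R R' α β)) (G f)) ∧
      g.F.nrm 0 (ew (ph g t (cw R R' α β)) (G f)) ≤ K * g.F.nrm 0 (ew (ph g t (cw R R' α β)) f) ∧
      exp t * ‖S f‖ ≤ K * g.F.nrm 0 (ew (ph g t (cw R R' α β)) f)

theorem exists_pk (hL : L.OK) (hU : g.UlC) (hT : (L.A.H g.F 0).IsFredholm)
    (ϖ : Fin k → Sec X.I L.A.q) (hs : Surjective (TT g.F ϖ (L.A.H g.F 0))) :
    ∃ R e K G S, Pk L (fun i => (ϖ i).1) R e K G S := by
  obtain ⟨n, θ, δ, hδ, K, hK, h1⟩ :=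
    core hL.gm.tame.choose_spec hL.good.choose_spec hL.cl.1 ϖ hT hs
  obtain ⟨e, he, h2⟩ := exists_e g hδ
  obtain ⟨R1, hR1, h3⟩ := off_supp g fun i => (ϖ i).2.2.1
  obtain ⟨R2, -, h4⟩ := off_supp g fun j => (θ j).1.2.2.1
  set R := max R1 R2
  have hR : 1 ≤ R := hR1.trans (le_max_left _ _)
  have h0 : 0 ≤ R := by linarith
  have h5 := fun (R' t : ℝ) (α β : A → ℝ) (h : R ≤ R') (ha : ∀ s, |α s| + |β s| ≤ 3 * e) =>
    h1 _ t (wg_cw h0 h) (h2 R R' t α β h0 h ha) fun x hx =>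
      have hx' : x ∉ g.cor R := fun e => hx (ph_cor h e)
      ⟨h3 x fun e => hx' (cor_mono (le_max_left _ _) e),
        h4 x fun e => hx' (cor_mono (le_max_right _ _) e)⟩
  obtain ⟨h6, h7⟩ := h5 R 0 (fun _ => -e) (fun _ => 0) le_rfl
    fun s => by simp [abs_of_pos he]; linarith
  have w := wg_cw (g := g) (t := 0) (α := fun _ => -e) (β := fun _ => 0) h0 le_rfl
  choose! G S hG using fun (f : X.M → W) (hf : Sc L.A.q f) (hb : g.F.Cb f) =>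
    h6 f hf.1 hf.2 (wf_c1 hL.gm hU h0 he hb)
  have un : ∀ f u a, Sc L.A.q f → g.F.Cb f → Sol g.F L.A ϖ θ f u a →
      Wf g.F (ph g 0 (c1 A R (-e))) u → u = G f ∧ a = S f := fun f u a hf hb s1 s2 => by
    obtain ⟨s3, s4, -⟩ := hG f hf hb
    have := h7 _ _ (sub_self f ▸ s1.sub s3) (s2.sub s4 w s1.sm s3.sm)
    exact ⟨sub_eq_zero.1 this.1, sub_eq_zero.1 this.2⟩
  refine ⟨R, e, K, G, S, hR, he, hK, fun f hf hb => ⟨(hG f hf hb).1.sm, (hG f hf hb).1.pr⟩,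
    fun f hf hb => (hG f hf hb).1.eq, fun f f' hf hb hf' hb' => ?_,
    fun R' t α β b h ha hc f hf hb hw => ?_⟩
  · obtain ⟨s1, s2, -⟩ := hG f hf hb
    obtain ⟨s3, s4, -⟩ := hG f' hf' hb'
    have := un (f - f') _ _ ⟨hf.1.sub hf'.1, fun x => by simp [hf.2 x, hf'.2 x]⟩ (Cb_sub hb hb')
      (s1.sub s3) (s2.sub s4 w s1.sm s3.sm)
    exact ⟨this.1.symm, this.2.symm⟩
  · obtain ⟨u, a, s1, s2, s3⟩ := (h5 R' t α β h ha).1 f hf.1 hf.2 hw
    obtain ⟨rfl, rfl⟩ := un f u a hf hb s1 (s2.mono s1.sm (wg_cw h0 h) w (ph_le hc))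
    exact ⟨s2, s3⟩

namespace Pk
variable {ϖ : Fin k → X.M → W} {G : (X.M → W) → X.M → V} {S : (X.M → W) → Fin k → ℝ}
  (h : Pk L ϖ R e K G S)
include h

theorem R0 : 0 ≤ R := zero_le_one.trans h.R1

theorem cmp1 {a : ℝ} (h1 : -e ≤ a) (h2 : a ≤ e) {f : X.M → W} (hf : Sc L.A.q f) (hb : g.F.Cb f)
    (hw : Wf g.F (ph g 0 (c1 A R a)) f) : Wf g.F (ph g 0 (c1 A R a)) (G f) ∧
      g.F.Cb (ew (ph g 0 (c1 A R a)) (G f)) ∧
      g.F.nrm 0 (ew (ph g 0 (c1 A R a)) (G f)) ≤ K * g.F.nrm 0 (ew (ph g 0 (c1 A R a)) f) ∧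
      ‖S f‖ ≤ K * g.F.nrm 0 (ew (ph g 0 (c1 A R a)) f) := by
  have := h.cmp R 0 (fun _ => a) (fun _ => 0) 0 le_rfl
    (fun s => by have := abs_le.2 ⟨h1, h2⟩; have := h.e0; simp; linarith)
    (fun s τ => by rw [c1_eq, c1_eq']; nlinarith [(rh_mem R τ).1]) f hf hb hw
  rwa [exp_zero, one_mul] at this

theorem dec (hg : g.OK) {f : X.M → W} (hf : Sc L.A.q f) (hc : HasCompactSupport f) (s : A) {δ : ℝ}
    (hδ : 0 < δ) : ∃ T, ∀ τ ≥ T, ∀ y, ‖G f (g.pt s τ y)‖ ≤ δ := by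
  have he := h.e0
  have w := wg_cw (g := g) (t := 0) (α := fun _ => e) (β := fun _ => 0) h.R0 le_rfl
  obtain ⟨-, ⟨D, hD⟩, -⟩ := h.cmp1 (a := e) (by linarith) le_rfl hf (Cb_of_hcs hf.1 hc)
    fun j => FL_of_hcs j (w.sm_ew hf.1) hc.smul_left
  refine ⟨max 0 (R + 1 + |D 0| / (δ * e)), fun τ hτ y => ?_⟩
  have h1 := (CB_bound (hD.2 0) (g.pt s τ y)).trans (le_abs_self _)
  have h2 : 0 ≤ τ := (le_max_left _ _).trans hτ
  rw [norm_smul, Real.norm_of_nonneg (exp_pos _).le, ph, rd_pt hg (rd_cw h.R0 le_rfl)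
    (by linarith), zero_add, c1_eq'] at h1
  have h3 : |D 0| / (δ * e) ≤ rh R τ := by linarith [(rh_mem R τ).2.2, (le_max_right _ _).trans hτ]
  rw [div_le_iff₀ (by positivity)] at h3
  have h4 := add_one_le_exp (e * rh R τ)
  refine le_of_mul_le_mul_left (h1.trans ?_) (exp_pos (e * rh R τ))
  nlinarith

theorem wt (hg : g.OK) (hU : g.UlC) {ε : ℝ} (hε : ε ∈ Ioc 0 e) : ∃ C, ∀ f, Sc L.A.q f → g.F.Cb f →
    g.Q (fun _ => ε) (G f) + ‖S f‖ ^ 2 ≤ C * g.Q (fun _ => ε) f := by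
  obtain ⟨C1, h1⟩ := hU.cb W 0
  obtain ⟨C2, h2⟩ := hU.q ε hε.1
  have r := rd_cw (α := fun _ : A => -ε) (β := fun _ => 0) h.R0 le_rfl
  refine ⟨2 * K ^ 2 * exp (2 * (ε * (R + 1))), fun f hf hb => ?_⟩
  have hw := wf_c1 hg hU h.R0 hε.1 hb
  obtain ⟨s1, -, s2, s3⟩ := h.cmp1 (a := -ε) (neg_le_neg hε.2) (by linarith [hε.1, hε.2]) hf hb hw
  obtain ⟨D, hD⟩ := hb
  have s4 := Q_le hg r (e := ε) (fun s τ hτ => by
    have := (rh_mem R τ).2.1.trans (max_le (by linarith [h.R0]) hτ : _ ≤ τ)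
    rw [c1_eq']; nlinarith [hε.1]) (h.sc f hf ⟨D, hD⟩).1.continuous (s1 0)
  have s5 := le_Q hg r (mul_nonneg hε.1.le (by linarith [h.R0])) (fun s τ _ => c1_le hε.1.le s τ)
    hf.1.continuous (hw 0) (h2 W f _ hf.1.continuous (h1 f _ hf.1 (hD.2 0))).1
  have s6 := pow_le_pow_left₀ (nrm_nonneg _ _) s2 2
  have s7 := pow_le_pow_left₀ (norm_nonneg _) s3 2
  have s8 := mul_le_mul_of_nonneg_left s5 (sq_nonneg K)
  rw [mul_pow] at s6 s7
  linarith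

open Classical in
theorem ul0 (hg : g.OK) (hU : g.UlC) : ∃ C ≥ 0, ∀ f r, Sc L.A.q f → g.F.Cb f → g.Ul 0 f r →
    g.Ul 0 (G f) (C * r) ∧ ‖S f‖ ≤ C * r := by
  have he := h.e0
  have hK := h.K0
  have R0 := h.R0
  obtain ⟨Z, hZ, h1⟩ := ul_wt (N := W) g hg he (e * (2 * R + 2))
  refine ⟨exp (e * (R + 5)) * (K * Z), by positivity, fun f r hf hb hr => ?_⟩
  have r0 := ul_nn hr
  have a0 : ∀ {x : ℝ}, x ≤ Z * r → K * x ≤ K * Z * r := fun hx => by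
    rw [mul_assoc]; exact mul_le_mul_of_nonneg_left hx hK.le
  have a1 : K * Z * r ≤ exp (e * (R + 5)) * (K * Z) * r := by
    rw [mul_assoc (exp _)]
    exact le_mul_of_one_le_left (by positivity) (one_le_exp (by positivity))
  obtain ⟨s1, -, s2, s3⟩ := h.cmp1 (a := -e) le_rfl (by linarith) hf hb (wf_c1 hg hU R0 he hb)
  have s4 := a0 (h1 _ 0 (fun _ => 0) (rd_cw R0 le_rfl) (by positivity)
    (fun s τ hτ => (c1_dec he.le s τ hτ).trans (by nlinarith)) f r hf.1.continuous hr).2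
  refine ⟨⟨?_, fun s τ hτ => ?_⟩, s3.trans (s4.trans a1)⟩
  · refine (nS_le (isClosed_cor g 1).measurableSet (b := 0) (fun x hx => ?_) (s1 0)).trans ?_
    · rw [ph_cor le_rfl (cor_mono h.R1 hx), neg_zero]
    · rw [exp_zero, one_mul]; exact s2.trans (s4.trans a1)
  · set m := ⌊τ⌋₊
    have m0 : (0 : ℝ) ≤ m := Nat.cast_nonneg _
    have hR : R ≤ R + m := by linarith
    set α : A → ℝ := fun s' => if s' = s then e else -e
    set β : A → ℝ := fun s' => if s' = s then -(2 * e) else 0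
    have c0 : ∀ z, cw R (R + m) α β s z = e * rh R z - 2 * e * rh (R + m) z := fun z => by
      simp [cw, α, β]; ring
    have c2 : ∀ s', s' ≠ s → ∀ z, cw R (R + m) α β s' z = -e * rh R z := fun s' hs z => by
      simp [cw, α, β, hs]
    have b1 : ∀ s' z, 0 ≤ z → -(e * m) + cw R (R + m) α β s' z ≤
        e * (2 * R + 2) - e * |z - ((if s' = s then m else 0 : ℕ) : ℝ)| := fun s' z hz => by
      obtain ⟨p1, p2, p3⟩ := rh_mem R z
      obtain ⟨q1, -, q3⟩ := rh_mem (R + m) z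
      have p4 : rh R z ≤ z := p2.trans (max_le (by linarith) hz)
      by_cases hs : s' = s
      · rw [hs, c0, if_pos rfl]
        have : |z - m| ≤ 2 * R + 2 + m - rh R z + 2 * rh (R + m) z :=
          abs_le.2 ⟨by linarith, by linarith⟩
        nlinarith
      · rw [c2 s' hs, if_neg hs, Nat.cast_zero, sub_zero, abs_of_nonneg hz]; nlinarith
    have t0 : -(e * m) ≤ e * (2 * R + 2) := by nlinarith
    obtain ⟨s5, -, s6, -⟩ := h.cmp (R + m) (-(e * m)) α β (2 * e) hR (fun s' => by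
        by_cases hs : s' = s <;> simp [α, β, hs, abs_of_pos he] <;> linarith)
      (fun s' z => by
        by_cases hs : s' = s
        · obtain ⟨p1, -, p3⟩ := rh_mem R z
          have p4 : rh (R + m) z ≤ rh R z + 1 :=
            (rh_mem _ z).2.1.trans (max_le (by linarith) (by linarith))
          rw [hs, c0, c1_eq]; nlinarith
        · rw [c2 s' hs, c1_eq]; linarith) f hf hb (wf_cb hg hU R0 hR he _ t0 b1 hb)
    have s7 := a0 (h1 _ _ _ (rd_cw R0 hR) t0 b1 f r hf.1.continuous hr).2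
    refine (nS_le ((cont_ht g s).measurable measurableSet_Icc) (b := e * (R + 5))
      (fun x hx => ?_) (s5 0)).trans ?_
    · have x1 : τ ≤ g.ht s x := hx.1
      have x2 : g.ht s x ≤ τ + 1 := hx.2
      have m1 : (m : ℝ) ≤ τ := Nat.floor_le hτ
      have m2 : τ < m + 1 := Nat.lt_floor_add_one τ
      rw [ph, rd_eq hg (s := s) (fun s t ht => cw_zero hR (by linarith)) (by linarith), c0]
      have p1 := (rh_mem R (g.ht s x)).2.2
      have p2 : rh (R + m) (g.ht s x) ≤ 2 :=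
        (rh_mem _ _).2.1.trans (max_le (by linarith) (by norm_num))
      nlinarith
    · rw [mul_assoc]
      exact mul_le_mul_of_nonneg_left (s6.trans s7) (exp_pos _).le

omit h in
theorem ul_sum (hU : g.UlC) (j : ℕ) (hϖ : ∀ i, g.F.Cb (ϖ i)) : ∃ C ≥ 0, ∀ (f : X.M → W) r
    (a : Fin k → ℝ), Sm X.I f → g.Ul j f r → g.Ul j (f + ∑ i, a i • ϖ i) (r + C * ‖a‖) := by
  obtain ⟨C, hC⟩ := hU.cb W j
  choose D hD using hϖ
  have h0 := fun i => hC _ _ (hD i).1 ((hD i).2 j)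
  refine ⟨∑ i, C * D i j, Finset.sum_nonneg fun i _ => ul_nn (h0 i), fun f r a hf hr => ?_⟩
  have : ∀ s : Finset (Fin k), Sm X.I (f + ∑ i ∈ s, a i • ϖ i) ∧
      g.Ul j (f + ∑ i ∈ s, a i • ϖ i) (r + (∑ i ∈ s, C * D i j) * ‖a‖) := fun s => by
    induction s using Finset.induction_on with
    | empty => simpa using ⟨hf, hr⟩
    | insert i s hi ih =>
      rw [Finset.sum_insert hi, Finset.sum_insert hi, add_comm (a i • ϖ i), ← add_assoc]
      have s1 : Sm X.I (f + ∑ i ∈ s, a i • ϖ i + a i • ϖ i) :=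
        ih.1.add ((contMDiff_const (I' := 𝓘(ℝ, ℝ)) (c := a i)).smul (hD i).1)
      have s2 := (hU.alg W j _ _ _ _ (a i) ih.1 (hD i).1 ih.2 (h0 i)).1
      refine ⟨s1, (hU.alg W j _ _ _ _ 0 s1 s1 s2 s2).2 j le_rfl _ ?_⟩
      have := mul_le_mul_of_nonneg_right (norm_le_pi_norm a i) (ul_nn (h0 i))
      rw [Real.norm_eq_abs] at this
      nlinarith
  exact (this _).2

theorem ul (hL : L.OK) (hU : g.UlC) (hϖ : ∀ i, g.F.Cb (ϖ i)) (j : ℕ) : ∃ C, ∀ f r, Sc L.A.q f →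
    g.F.Cb f → g.Ul j f r → g.Ul (j + 1) (G f) (C * r) ∧ ‖S f‖ ≤ C * r := by
  obtain ⟨C0, c0, h0⟩ := h.ul0 hL.gm hU
  have mono : ∀ {N : Type} [NormedAddCommGroup N] [InnerProductSpace ℝ N] {i j : ℕ} {u : X.M → N}
      {r r' : ℝ}, Sm X.I u → g.Ul j u r → i ≤ j → r ≤ r' → g.Ul i u r' :=
    fun hu hr hi h' => (hU.alg _ _ _ _ _ _ 0 hu hu hr hr).2 _ hi _ h'
  have step : ∀ j, (∃ C, ∀ f r, Sc L.A.q f → g.F.Cb f → g.Ul j f r → g.Ul j (G f) (C * r)) →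
      ∃ C, ∀ f r, Sc L.A.q f → g.F.Cb f → g.Ul j f r → g.Ul (j + 1) (G f) (C * r) := by
    rintro j ⟨C1, h1⟩
    obtain ⟨C2, c2, h2⟩ := ul_sum hU j hϖ
    obtain ⟨C3, h3⟩ := hU.el V W L.A hL.good hL.cl.1 j
    refine ⟨C3 * (|C1| + (1 + C2 * C0)), fun f r hf hb hr => ?_⟩
    have r0 := ul_nn hr
    have s0 := h.sc f hf hb
    have e1 : L.A.app g.F (G f) = f + ∑ i, S f i • ϖ i := funext fun x => by
      rw [Pi.add_apply, ← h.eq f hf hb x]; simp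
    have s1 := mul_le_mul_of_nonneg_left (h0 f r hf hb (mono hf.1 hr j.zero_le le_rfl)).2 c2
    have s2 := mul_nonneg (abs_nonneg C1) r0
    have s3 := mul_le_mul_of_nonneg_right (le_abs_self C1) r0
    have s4 := mul_nonneg (mul_nonneg c2 c0) r0
    rw [mul_assoc]
    refine h3 _ _ s0 (mono (sm_app hL.good.choose_spec s0.1) (e1 ▸ h2 f r (S f) hf.1 hr) le_rfl ?_)
      (mono s0.1 (h1 f r hf hb hr) le_rfl ?_) <;> nlinarith
  have all : ∀ j, ∃ C, ∀ f r, Sc L.A.q f → g.F.Cb f → g.Ul j f r → g.Ul j (G f) (C * r) := by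
    intro j
    induction j with
    | zero => exact ⟨C0, fun f r hf hb hr => (h0 f r hf hb hr).1⟩
    | succ j ih =>
      exact (step j ih).imp fun C hC f r hf hb hr => hC f r hf hb (mono hf.1 hr j.le_succ le_rfl)
  obtain ⟨C, hC⟩ := step j (all j)
  refine ⟨max C C0, fun f r hf hb hr => ?_⟩
  have r0 := ul_nn hr
  exact ⟨mono (h.sc f hf hb).1 (hC f r hf hb hr) le_rfl
    (mul_le_mul_of_nonneg_right (le_max_left _ _) r0),
    (h0 f r hf hb (mono hf.1 hr j.zero_le le_rfl)).2.trans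
      (mul_le_mul_of_nonneg_right (le_max_right _ _) r0)⟩

theorem cb (hL : L.OK) (hU : g.UlC) (hϖ : ∀ i, g.F.Cb (ϖ i)) {f : X.M → W} (hf : Sc L.A.q f)
    (hb : g.F.Cb f) : g.F.Cb (G f) := by
  choose C1 h1 using h.ul hL hU hϖ
  choose C2 h2 using hU.sup V
  choose C3 h3 using hU.cb W
  obtain ⟨D, hD⟩ := id hb
  exact ⟨_, (h.sc f hf hb).1, fun j => h2 j _ _ (h.sc f hf hb).1
    (h1 (j + 3) f _ hf hb (h3 _ _ _ hD.1 (hD.2 _))).1⟩

theorem rv (hL : L.OK) (hU : g.UlC) (hϖ : ∀ i, g.F.Cb (ϖ i)) {ε : ℝ} (hε : ε ∈ Ioc 0 e) :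
    L.Rv ϖ ε G S :=
  ⟨fun f hf hb => ⟨h.sc f hf hb, h.cb hL hU hϖ hf hb⟩, h.eq, h.sub, h.wt hL.gm hU hε,
    h.ul hL hU hϖ, fun _ hf hc s _ hδ => h.dec hL.gm hf hc s hδ⟩

end Pk

variable (κ lam) in
/-- **RAD-RINV** -/
theorem rinv : RinvStmt κ lam := by
  intro X A _ g V W _ _ _ _ _ _ L hL hF hU k ϖ h0 hϖ hv _
  have hT : (L.A.H g.F 0).IsFredholm := T_zero L ▸ hF.fr 0 h0
  obtain ⟨R, e, K, G, S, h⟩ := exists_pk hL hU hT (fun i => ⟨ϖ i, hϖ i⟩)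
    (surj_L hL hU hT (fun i => ⟨ϖ i, hϖ i⟩) hv)
  exact ⟨e, h.e0, G, S, fun ε hε => h.rv hL hU (fun i => Cb_of_hcs (hϖ i).1 (hϖ i).2.1) hε⟩

end Crest.Agent.X212.Rinv39
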