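import Crest.Agent.X212.Fred93.Cpt

/-! Row 212, RAD-RINV (helper39): stable bijections, rows, surjectivity from a neighbour. -/

set_option autoImplicit false
set_option linter.unusedSectionVars false
noncomputable section
open Set Filter Topology Function Module

namespace Crest.Agent.X212.Rinv39
open Fred93

variable {E F : Type*} [NormedAddCommGroup E] [NormedSpace ℝ E] [CompleteSpace E]
  [NormedAddCommGroup F] [NormedSpace ℝ F] [CompleteSpace F]

/-- bijections are stable, with a uniform bound of the inverse -/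
theorem stab {T : E →L[ℝ] F} (hT : Bijective T) : ∃ δ > 0, ∃ C > 0, ∀ T' : E →L[ℝ] F,
    ‖T' - T‖ ≤ δ → Bijective T' ∧ ∀ x, ‖x‖ ≤ C * ‖T' x‖ := by
  obtain ⟨ε, hε, h1⟩ := (Fr.of_bijective hT).exists_ball
  let e := ContinuousLinearEquiv.ofBijective T (LinearMap.ker_eq_bot.2 hT.1)
    (LinearMap.range_eq_top.2 hT.2)
  obtain ⟨c, hc, h2⟩ : ∃ c > 0, ∀ x, ‖x‖ ≤ c * ‖T x‖ := by
    refine ⟨‖(e.symm : F →L[ℝ] E)‖ + 1, by positivity, fun x => ?_⟩
    have h := (e.symm : F →L[ℝ] E).le_opNorm (e x)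
    rw [ContinuousLinearEquiv.coe_coe, e.symm_apply_apply] at h
    have h3 : e x = T x := rfl
    rw [h3] at h
    nlinarith [norm_nonneg (T x)]
  refine ⟨min (ε / 2) (1 / (2 * c)), by positivity, 2 * c, by positivity, fun T' h => ?_⟩
  have h3 : ∀ x, ‖x‖ ≤ 2 * c * ‖T' x‖ := fun x => by
    have a1 : ‖T x‖ ≤ ‖T' x‖ + ‖(T' - T) x‖ := by
      have : T x = T' x - (T' - T) x := by simp
      exact this ▸ norm_sub_le (T' x) ((T' - T) x)
    have a2 : ‖(T' - T) x‖ ≤ 1 / (2 * c) * ‖x‖ :=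
      ((T' - T).le_opNorm x).trans
        (mul_le_mul_of_nonneg_right (h.trans (min_le_right _ _)) (norm_nonneg _))
    have a3 : c * (1 / (2 * c) * ‖x‖) = ‖x‖ / 2 := by field_simp
    have a4 := mul_le_mul_of_nonneg_left (a1.trans (add_le_add le_rfl a2)) hc.le
    have a5 := h2 x
    linarith
  have hi : Injective T' := (injective_iff_map_eq_zero _).2 fun x hx => by
    have := h3 x
    rw [hx, norm_zero, mul_zero] at this
    exact norm_le_zero_iff.1 this
  exact ⟨⟨hi, (h1 T' ((h.trans (min_le_left _ _)).trans_lt (by linarith))).surj_of_inj hi⟩, h3⟩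

/-- rows from a separating family -/
theorem rows {T : E →L[ℝ] F} (hT : T.IsFredholm) (hs : Surjective T) {S : Type*} [AddCommGroup S]
    [Module ℝ S] (β : S →ₗ[ℝ] E →L[ℝ] ℝ) (hβ : ∀ x, (∀ s, β s x = 0) → x = 0) :
    ∃ (n : ℕ) (θ : Fin n → S), Bijective (T.prod (ContinuousLinearMap.pi fun j => β (θ j))) := by
  obtain ⟨_, -⟩ := exists_block hT
  let B : S →ₗ[ℝ] T.ker →ₗ[ℝ] ℝ := LinearMap.mk₂ ℝ (fun s x => β s x.1) (fun _ _ _ => by simp)
    (fun _ _ _ => by simp) (fun _ _ _ => by simp) (fun _ _ _ => by simp)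
  have h1 : Surjective B := LinearMap.flip_injective_iff₂.1
    ((injective_iff_map_eq_zero _).2 fun x hx => Subtype.ext
      (hβ _ fun s => LinearMap.congr_fun hx s))
  let b := Module.finBasis ℝ T.ker
  choose θ hθ using fun j => h1 (b.coord j)
  refine ⟨_, θ, ?_⟩
  have h2 := (Fr.of hT).prod (ContinuousLinearMap.pi fun j => β (θ j))
  rw [← (Fr.of hT).finrank_ker hs, finrank_fin_fun, sub_self] at h2
  have hi : Injective (T.prod (ContinuousLinearMap.pi fun j => β (θ j))) := by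
    refine (injective_iff_map_eq_zero _).2 fun x hx => ?_
    have h3 : T x = 0 := congrArg Prod.fst hx
    have h4 : (⟨x, h3⟩ : T.ker) = 0 := b.forall_coord_eq_zero_iff.1 fun j => by
      rw [← hθ j]; exact congrFun (congrArg Prod.snd hx) j
    exact congrArg Subtype.val h4
  exact ⟨hi, h2.surj_of_inj hi⟩

/-- an onto neighbour with a larger kernel -/
theorem surj_near {T : E →L[ℝ] F} (hT : T.IsFredholm) : ∃ δ > 0, ∀ T' : E →L[ℝ] F,
    ‖T' - T‖ ≤ δ → T'.IsFredholm ∧ (Surjective T' → ∀ J : E →L[ℝ] E, Injective J →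
      (∀ x, T x = 0 → T' (J x) = 0) → Surjective T) := by
  obtain ⟨ε, hε, h1⟩ := (Fr.of hT).exists_ball
  refine ⟨ε / 2, by positivity, fun T' h => ?_⟩
  have h2 := h1 T' (h.trans_lt (by linarith))
  refine ⟨h2.1, fun hs J hJ hk => (Fr.of hT).surj_of_finrank ?_⟩
  obtain ⟨_, -⟩ := exists_block h2.1
  rw [← h2.finrank_ker hs]
  exact_mod_cast LinearMap.finrank_le_finrank_of_injective
    (f := J.toLinearMap.restrict (p := T.ker) (q := T'.ker) fun x hx => hk x hx)
    fun x y e => Subtype.ext (hJ (congrArg Subtype.val e))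

/-- closed range with trivial complement -/
theorem surj_of_orth {G : Type*} [NormedAddCommGroup G] [InnerProductSpace ℝ G] [CompleteSpace G]
    {T : E →L[ℝ] G} (hT : T.IsFredholm) (h : ∀ y, (∀ x, inner ℝ (T x) y = 0) → y = 0) :
    Surjective T := by
  have := hT.isClosed_range.completeSpace_coe
  refine LinearMap.range_eq_top.1 (Submodule.orthogonal_eq_bot_iff.1 (eq_bot_iff.2 fun y hy => ?_))
  exact h y fun x => hy _ ⟨x, rfl⟩

end Crest.Agent.X212.Rinv39
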