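import Crest.Agent.X212.Rinv39.Cj

/-! Row 212, RAD-RINV (helper39): unique solvability for all small weights. -/

set_option autoImplicit false
set_option linter.unusedSectionVars false
noncomputable section
open scoped Manifold ContDiff Topology InnerProductSpace
open MeasureTheory Set Function Filter Real

namespace Crest.Agent.X212.Rinv39
open An An.Pre Sob92 Ell97 Nk89

variable {E : Type} [NormedAddCommGroup E] [NormedSpace ℝ E] [FiniteDimensional ℝ E]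
  [MeasurableSpace E] [BorelSpace E]
  {HM : Type} [TopologicalSpace HM] {I : ModelWithCorners ℝ E HM} [I.Boundaryless]
  {M : Type} [TopologicalSpace M] [ChartedSpace HM M] [IsManifold I ∞ M]
  [MeasurableSpace M] {ι : Type} [Fintype ι]
  {V W : Type} [NormedAddCommGroup V] [InnerProductSpace ℝ V] [FiniteDimensional ℝ V]
  [NormedAddCommGroup W] [InnerProductSpace ℝ W] [FiniteDimensional ℝ W]
  [T2Space M] [BorelSpace M] [SecondCountableTopology M]
  {F : Fr I M ι} {A : Op M ι V W} {C C' : ℕ → ℝ} {φ : M → ℝ} {k n : ℕ}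

variable (F) in
/-- the columns -/
def col {q : M → W →L[ℝ] W} (ϖ : Fin k → Sec I q) : (Fin k → ℝ) →L[ℝ] F.H 0 q :=
  ∑ i, (ContinuousLinearMap.proj i : (Fin k → ℝ) →L[ℝ] ℝ).smulRight (F.toH 0 q (ϖ i))

theorem col_eq {q : M → W →L[ℝ] W} (ϖ : Fin k → Sec I q) (a : Fin k → ℝ) :
    col F ϖ a = F.toH 0 q (∑ i, a i • ϖ i) := by
  simp [col]

theorem sec_sum {q : M → W →L[ℝ] W} (ϖ : Fin k → Sec I q) (a : Fin k → ℝ) (x : M) :
    (∑ i, a i • ϖ i : Sec I q).1 x = ∑ i, a i • (ϖ i).1 x := by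
  simp

variable (F) in
/-- the operator with the columns -/
def TT {p : M → V →L[ℝ] V} {q : M → W →L[ℝ] W} (ϖ : Fin k → Sec I q) (T : F.H 1 p →L[ℝ] F.H 0 q) :
    F.H 1 p × (Fin k → ℝ) →L[ℝ] F.H 0 q := T.coprod (-col F ϖ)

theorem TT_apply {p : M → V →L[ℝ] V} {q : M → W →L[ℝ] W} (ϖ : Fin k → Sec I q)
    (T : F.H 1 p →L[ℝ] F.H 0 q) (z : F.H 1 p × (Fin k → ℝ)) : TT F ϖ T z = T z.1 - col F ϖ z.2 := by
  simp [TT, sub_eq_add_neg]

theorem norm_TT {p : M → V →L[ℝ] V} {q : M → W →L[ℝ] W} (ϖ : Fin k → Sec I q)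
    (T T' : F.H 1 p →L[ℝ] F.H 0 q) : ‖TT F ϖ T' - TT F ϖ T‖ ≤ ‖T' - T‖ :=
  ContinuousLinearMap.opNorm_le_bound _ (norm_nonneg _) fun z => by
    rw [_root_.sub_apply, TT_apply, TT_apply, sub_sub_sub_cancel_right]
    exact ((T' - T).le_opNorm z.1).trans
      (mul_le_mul_of_nonneg_left (norm_fst_le z) (norm_nonneg _))

variable (F k) in
/-- the rows -/
def rw0 (p : M → V →L[ℝ] V) :
    (Sec I p × (Fin k → ℝ)) →ₗ[ℝ] F.H 1 p × (Fin k → ℝ) →L[ℝ] ℝ where
  toFun s := innerSL ℝ (F.toH 0 p s.1) ∘L F.incl 1 0 p ∘L ContinuousLinearMap.fst ℝ _ _ +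
    (∑ i, s.2 i • ContinuousLinearMap.proj i) ∘L ContinuousLinearMap.snd ℝ _ _
  map_add' s t := ContinuousLinearMap.ext fun z => by
    simp [add_mul, Finset.sum_add_distrib]; ring
  map_smul' r s := ContinuousLinearMap.ext fun z => by
    simp [Finset.mul_sum, mul_assoc]

theorem rw0_apply {p : M → V →L[ℝ] V} (s : Sec I p × (Fin k → ℝ)) (z : F.H 1 p × (Fin k → ℝ)) :
    rw0 F k p s z = ⟪F.incl 1 0 p z.1, F.toH 0 p s.1⟫_ℝ + ∑ i, s.2 i * z.2 i := by
  simp [rw0, real_inner_comm]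

theorem rw0_sep {p : M → V →L[ℝ] V} (z : F.H 1 p × (Fin k → ℝ)) (h : ∀ s, rw0 F k p s z = 0) :
    z = 0 := by
  refine Prod.ext (incl_inj F zero_le_one p (H_ext fun u => ?_)) (funext fun i => ?_)
  · simpa [rw0_apply] using h (u, 0)
  · simpa [rw0_apply, Pi.single_apply] using h (0, Pi.single i 1)

variable (F A) in
/-- the equation with the columns and the rows -/
structure Sol (ϖ : Fin k → Sec I A.q) (θ : Fin n → Sec I A.p × (Fin k → ℝ)) (f : M → W)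
    (u : M → V) (a : Fin k → ℝ) : Prop where
  sm : Sm I u
  pr : ∀ x, A.p x (u x) = u x
  eq : ∀ x, A.app F u x - ∑ i, a i • (ϖ i).1 x = f x
  row : ∀ j, F.ip 0 u (θ j).1.1 + ∑ i, (θ j).2 i * a i = 0

variable {ϖ : Fin k → Sec I A.q} {θ : Fin n → Sec I A.p × (Fin k → ℝ)}

theorem Sol.sub {f f' : M → W} {u u' : M → V} {a a' : Fin k → ℝ} (h : Sol F A ϖ θ f u a)
    (h' : Sol F A ϖ θ f' u' a') : Sol F A ϖ θ (f - f') (u - u') (a - a') := by
  refine ⟨h.sm.sub h'.sm, fun x => by simp [h.pr, h'.pr], fun x => ?_, fun j => ?_⟩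
  · have e := app_add (F := F) (A := A) (h.sm.sub h'.sm) h'.sm x
    rw [show (fun x => u x - u' x) + u' = u from funext fun x => by simp] at e
    rw [Pi.sub_apply, ← h.eq x, ← h'.eq x, e]
    simp only [Pi.sub_apply, sub_smul, Finset.sum_sub_distrib]
    have : u - u' = fun x => u x - u' x := rfl
    rw [this]; abel
  · have i := fun {w : M → V} (hw : Sm I w) => F.integrable_inner (θ j).1.2.1.continuous
      (θ j).1.2.2.1 hw.continuous
    have e : F.ip 0 (u - u') (θ j).1.1 = F.ip 0 u (θ j).1.1 - F.ip 0 u' (θ j).1.1 := by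
      simp only [F.ip_comm 0 _ (θ j).1.1]
      simp only [Pre.ip, Pi.sub_apply, inner_sub_right]
      exact integral_sub (i h.sm) (i h'.sm)
    have e1 := h.row j
    have e2 := h'.row j
    simp only [e, Pi.sub_apply, mul_sub, Finset.sum_sub_distrib]
    linarith

theorem ip_ew {p : M → V →L[ℝ] V} (s : Sec I p) {t : ℝ} (h : ∀ x, φ x ≠ t → s.1 x = 0) (u : M → V) :
    F.ip 0 (ew φ u) s.1 = exp t * F.ip 0 u s.1 := by
  simp only [Pre.ip, ← integral_const_mul]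
  refine integral_congr_ae (Eventually.of_forall fun x => ?_)
  by_cases e : φ x = t
  · simp [ew, e, inner_smul_left]
  · simp [h x e]

/-- the conjugated problem -/
theorem Sol.cj {f : M → W} {u : M → V} {a : Fin k → ℝ} (hφ : Wg F φ) {t : ℝ} (hu : Sm I u)
    (ht : ∀ x, φ x ≠ t → (∀ i, (ϖ i).1 x = 0) ∧ ∀ j, (θ j).1.1 x = 0) :
    Sol F (cj F A φ) ϖ θ (ew φ f) (ew φ u) (exp t • a) ↔ Sol F A ϖ θ f u a := by
  have h1 : ∀ x, ∑ i, (exp t • a) i • (ϖ i).1 x = exp (φ x) • ∑ i, a i • (ϖ i).1 x := fun x => by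
    by_cases e : φ x = t
    · simp [e, Finset.smul_sum, smul_smul]
    · simp [(ht x e).1]
  have h2 : ∀ j, F.ip 0 (ew φ u) (θ j).1.1 + ∑ i, (θ j).2 i * (exp t • a) i =
      exp t * (F.ip 0 u (θ j).1.1 + ∑ i, (θ j).2 i * a i) := fun j => by
    rw [ip_ew (θ j).1 fun x e => (ht x e).2 j, mul_add, Finset.mul_sum]
    simp [mul_left_comm]
  have h3 : ∀ x, (Rinv39.cj F A φ).app F (ew φ u) x - ∑ i, (exp t • a) i • (ϖ i).1 x =
      exp (φ x) • (A.app F u x - ∑ i, a i • (ϖ i).1 x) := fun x => by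
    rw [h1, hφ.app_ew hu, smul_sub]
  constructor
  · intro h
    refine ⟨hu, fun x => ?_, fun x => ?_, fun j => ?_⟩
    · exact smul_right_injective V (exp_ne_zero (φ x)) ((map_smul (A.p x) _ _).symm.trans (h.pr x))
    · exact smul_right_injective W (exp_ne_zero (φ x)) ((h3 x).symm.trans (h.eq x))
    · exact (mul_eq_zero.1 ((h2 j).symm.trans (h.row j))).resolve_left (exp_ne_zero t)
  · intro h
    refine ⟨hφ.sm_ew hu, fun x => (map_smul (A.p x) _ _).trans (by rw [h.pr]), fun x => ?_,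
      fun j => (h2 j).trans (by rw [h.row, mul_zero])⟩
    exact (h3 x).trans (by rw [h.eq])

variable (F) in
/-- the operator with columns and rows -/
def BB {p : M → V →L[ℝ] V} {q : M → W →L[ℝ] W} (ϖ : Fin k → Sec I q)
    (θ : Fin n → Sec I p × (Fin k → ℝ)) (T : F.H 1 p →L[ℝ] F.H 0 q) :
    F.H 1 p × (Fin k → ℝ) →L[ℝ] F.H 0 q × (Fin n → ℝ) :=
  (TT F ϖ T).prod (ContinuousLinearMap.pi fun j => rw0 F k p (θ j))

theorem norm_BB {p : M → V →L[ℝ] V} {q : M → W →L[ℝ] W} (ϖ : Fin k → Sec I q)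
    (θ : Fin n → Sec I p × (Fin k → ℝ)) (T T' : F.H 1 p →L[ℝ] F.H 0 q) :
    ‖BB F ϖ θ T' - BB F ϖ θ T‖ ≤ ‖T' - T‖ :=
  ContinuousLinearMap.opNorm_le_bound _ (norm_nonneg _) fun z => by
    have : (BB F ϖ θ T' - BB F ϖ θ T) z = ((TT F ϖ T' - TT F ϖ T) z, 0) := by simp [BB]
    rw [this, Prod.norm_mk, norm_zero, max_eq_left (norm_nonneg _)]
    exact ((TT F ϖ T' - TT F ϖ T).le_opNorm z).trans
      (mul_le_mul_of_nonneg_right (norm_TT ϖ T T') (norm_nonneg _))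

theorem BB_ex (hF : F.Tame C) (hA : A.Good F C') (hc : A.CliffL F) {K : ℝ}
    (hs : Surjective (BB F ϖ θ (A.H F 0))) (hK : ∀ z, ‖z‖ ≤ K * ‖BB F ϖ θ (A.H F 0) z‖) {f : M → W}
    (hf : Sm I f) (hL : ∀ j, FL F.toPre j f) (hq : ∀ y, A.q y (f y) = f y) :
    ∃ u a, Sol F A ϖ θ f u a ∧ F.Cb u ∧ (∀ j, FL F.toPre j u) ∧ F.nrm 0 u ≤ K * F.nrm 0 f ∧
      ‖a‖ ≤ K * F.nrm 0 f := by
  have := FiniteDimensional.complete ℝ V
  have := FiniteDimensional.complete ℝ W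
  obtain ⟨y, hy⟩ := exists_Is (Exh.of_tame hF) hf (hL 0) hq
  obtain ⟨z, hz⟩ := hs (y, 0)
  have h1 := hK z
  rw [hz, Prod.norm_mk y, norm_zero, max_eq_left (norm_nonneg _), hy.norm hf] at h1
  have h2 : A.H F 0 z.1 = y + F.toH 0 A.q (∑ i, z.2 i • ϖ i) := by
    rw [← col_eq, ← sub_eq_iff_eq_add, ← TT_apply]; exact congrArg Prod.fst hz
  set s : Sec I A.q := ∑ i, z.2 i • ϖ i with hs
  obtain ⟨u, h3, h4, h5, h6, h7⟩ := solve hF hA hc (x := z.1) (h := f + s.1) (hf.add s.2.1)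
    (fun j => ML.add F.sm hf s.2.1 (hL j) (FL_sec j s))
    (fun y => by rw [Pi.add_apply, map_add, hq, s.2.2.2]) (h2 ▸ hy.add (Is.toH s))
  refine ⟨u, z.2, ⟨h3.choose_spec.1, h5, fun x => ?_, fun j => ?_⟩, h3, h4, ?_,
    (norm_snd_le z).trans h1⟩
  · rw [h7, Pi.add_apply, hs, sec_sum, add_sub_cancel_right]
  · rw [← h6.inner_toH, ← rw0_apply]; exact congrFun (congrArg Prod.snd hz) j
  · rw [← h6.norm_zero]
    exact (norm_incl_le zero_le_one _).trans ((norm_fst_le z).trans h1)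

theorem BB_un (hF : F.Tame C) (hA : A.Good F C') (hi : Injective (BB F ϖ θ (A.H F 0))) {u : M → V}
    {a : Fin k → ℝ} (h : Sol F A ϖ θ 0 u a) (hL : FL F.toPre 1 u) : u = 0 ∧ a = 0 := by
  have := FiniteDimensional.complete ℝ V
  have := FiniteDimensional.complete ℝ W
  obtain ⟨x, hx⟩ := exists_Is (Exh.of_tame hF) h.sm hL h.pr
  have h1 : BB F ϖ θ (A.H F 0) (x, a) = 0 := by
    refine Prod.ext ?_ (funext fun j => ?_)
    · show TT F ϖ (A.H F 0) (x, a) = 0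
      rw [TT_apply, col_eq]
      refine ((is_app hA hx h.sm).sub (Is.toH _)).unique (Is.zero.congr (Eventually.of_forall
        fun y => ?_))
      rw [Pi.sub_apply, sec_sum, h.eq]
    · show rw0 F k A.p (θ j) (x, a) = 0
      rw [rw0_apply, hx.inner_toH]; exact h.row j
  have h2 := hi (h1.trans (map_zero _).symm)
  obtain rfl : x = 0 := congrArg Prod.fst h2
  exact ⟨ae_cont h.sm.continuous continuous_const (hx.symm.trans Is.zero), congrArg Prod.snd h2⟩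

/-- **Unique solvability for all small weights.** -/
theorem core (hF : F.Tame C) (hA : A.Good F C') (hc : A.CliffL F) (ϖ : Fin k → Sec I A.q)
    (hT : (A.H F 0).IsFredholm) (hs : Surjective (TT F ϖ (A.H F 0))) :
    ∃ (n : ℕ) (θ : Fin n → Sec I A.p × (Fin k → ℝ)), ∃ δ > 0, ∃ K > 0, ∀ φ t, Wg F φ →
      (∀ a x, |F.D a φ x| ≤ δ) → (∀ x, φ x ≠ t → (∀ i, (ϖ i).1 x = 0) ∧ ∀ j, (θ j).1.1 x = 0) →
      (∀ f, Sm I f → (∀ x, A.q x (f x) = f x) → Wf F φ f → ∃ u a, Sol F A ϖ θ f u a ∧ Wf F φ u ∧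
        F.Cb (ew φ u) ∧ F.nrm 0 (ew φ u) ≤ K * F.nrm 0 (ew φ f) ∧
          exp t * ‖a‖ ≤ K * F.nrm 0 (ew φ f)) ∧
      ∀ u a, Sol F A ϖ θ 0 u a → Wf F φ u → u = 0 ∧ a = 0 := by
  obtain ⟨n, θ, hB⟩ := rows ((Fred93.Fr.of hT).coprod (-col F ϖ)).1 hs (rw0 F k A.p) rw0_sep
  obtain ⟨η, hη, K, hK, h1⟩ := stab (T := BB F ϖ θ (A.H F 0)) hB
  obtain ⟨δ, hδ, h2⟩ := exists_small hA hη
  refine ⟨n, θ, δ, hδ, K, hK, fun φ t hφ hd ht => ?_⟩
  obtain ⟨h3, h4⟩ := h1 _ ((norm_BB ϖ θ _ _).trans (h2 φ hφ hd))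
  obtain ⟨_, g⟩ := hφ.good hA
  refine ⟨fun f hf hq hL => ?_, fun u a h hL => ?_⟩
  · obtain ⟨u, a, s1, s2, s3, s4, s5⟩ := BB_ex (A := cj F A φ) hF g hc h3.2 h4 (hφ.sm_ew hf) hL
      fun y => (map_smul (A.q y) _ _).trans (by rw [hq])
    have e : ew φ (ew (-φ) u) = u := funext fun x => by simp [ew, smul_smul, ← exp_add]
    have e' : exp t • exp (-t) • a = a := by simp [smul_smul, ← exp_add]
    refine ⟨ew (-φ) u, exp (-t) • a, (Sol.cj (u := ew (-φ) u) hφ ((sm_exp hφ.sm.neg).smul s1.sm) ht).1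
      (by rw [e, e']; exact s1), fun j => by rw [e]; exact s3 j, by rw [e]; exact s2,
      by rw [e]; exact s4, ?_⟩
    rwa [← Real.norm_of_nonneg (exp_pos t).le, ← norm_smul, e']
  · have e : ew φ (0 : M → W) = 0 := funext fun x => smul_zero _
    obtain ⟨s1, s2⟩ := BB_un (A := cj F A φ) hF g h3.1 (e ▸ (Sol.cj hφ h.sm ht).2 h) (hL 1)
    exact ⟨funext fun x => (smul_eq_zero.1 (congrFun s1 x)).resolve_left (exp_ne_zero _),
      (smul_eq_zero.1 s2).resolve_left (exp_ne_zero _)⟩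

/-- **Surjectivity from the vanishing of the decaying cokernel.** -/
theorem surj (hF : F.Tame C) (hA : A.Good F C') (hc : A.Cliff F) (ϖ : Fin k → Sec I A.q)
    (hT : (A.H F 0).IsFredholm) : ∃ δ > 0, ∀ φ, Wg F φ → (∀ a x, |F.D a φ x| ≤ δ) →
      (∀ x, φ x ≤ 0) → (∀ x, φ x ≠ 0 → ∀ i, (ϖ i).1 x = 0) →
      (∀ v, F.Cb v → (∀ x, A.q x (v x) = v x) → (A.adj F).app F (ew φ v) = 0 →
        (∀ i, F.ip 0 (ew φ v) (ϖ i).1 = 0) → ew φ v = 0) → Surjective (TT F ϖ (A.H F 0)) := by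
  have := FiniteDimensional.complete ℝ V
  have := FiniteDimensional.complete ℝ W
  obtain ⟨η, hη, h1⟩ := surj_near (T := TT F ϖ (A.H F 0)) ((Fred93.Fr.of hT).coprod (-col F ϖ)).1
  obtain ⟨δ, hδ, h2⟩ := exists_small hA hη
  refine ⟨δ, hδ, fun φ hφ hd h0 ht hv => ?_⟩
  obtain ⟨h3, h4⟩ := h1 _ ((norm_TT ϖ _ _).trans (h2 φ hφ hd))
  obtain ⟨_, g⟩ := hφ.good hA
  obtain ⟨_, g'⟩ := good_adj hF g
  obtain ⟨D, hD⟩ := hφ.cb_exp h0
  refine h4 (surj_of_orth h3 fun y hy => ?_) ((smulH F.toPre 1 A.p fun y => exp (φ y)).prodMap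
    (ContinuousLinearMap.id ℝ _)) ((injective_iff_map_eq_zero _).2 fun z hz => ?_) fun z hz => ?_
  · obtain ⟨x, rfl, hx⟩ := (par hF g (cliff_cj hc)).weak_ker (y := y) fun x => by
      have := hy (x, 0)
      rw [TT_apply, map_zero, sub_zero] at this
      exact this
    obtain ⟨v, s1, -, s3, s4, s5⟩ := solve hF g' hc.2 (x := x) (h := 0) contMDiff_const
      (fun j => FL_of_hcs j contMDiff_const HasCompactSupport.zero) (fun _ => map_zero _)
      (by rw [show ((cj F A φ).adj F).H F 0 x = 0 from hx]; exact Is.zero)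
    have s6 := hv v s1 s3 (by
      rw [hφ.adj_ew hF hA s1.choose_spec.1, s5]; exact funext fun x => smul_zero _) fun i => by
      rw [ip_ew (ϖ i) fun x e => ht x e i, ← s4.inner_toH, real_inner_comm]
      have := hy (0, Pi.single i 1)
      rw [TT_apply, col_eq, map_zero, zero_sub, inner_neg_left, neg_eq_zero] at this
      simp only [Pi.single_apply, ite_smul, one_smul, zero_smul, Finset.sum_ite_eq',
        Finset.mem_univ, if_true] at this
      exact mul_eq_zero_of_right _ this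
    obtain rfl : v = 0 := funext fun x =>
      (smul_eq_zero.1 (congrFun s6 x)).resolve_left (exp_ne_zero _)
    obtain rfl : x = 0 := s4.unique Is.zero
    exact map_zero _
  · have s0 := congrArg Prod.snd hz
    refine Prod.ext ?_ s0
    have s1 : Is F.toPre 1 A.p z.1 (F.toL2 1 A.p z.1) := EventuallyEq.rfl
    have s2 := s1.smulH ⟨D, hD⟩
    rw [show smulH F.toPre 1 A.p (fun y => exp (φ y)) z.1 = 0 from congrArg Prod.fst hz] at s2
    refine s1.unique (Is.zero.congr ?_)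
    filter_upwards [s2.symm.trans Is.zero] with x hx
    exact ((smul_eq_zero.1 hx).resolve_left (exp_ne_zero _)).symm
  · rw [TT_apply, sub_eq_zero, col_eq] at hz ⊢
    show (cj F A φ).H F 0 (smulH F.toPre 1 A.p (fun y => exp (φ y)) z.1) = F.toH 0 A.q
      (∑ i, z.2 i • ϖ i)
    rw [hφ.H_smul hA h0, hz, smulH_toH hD]
    refine congrArg _ (Subtype.ext (funext fun x => ?_))
    show exp (φ x) • (∑ i, z.2 i • ϖ i : Sec I A.q).1 x = _
    by_cases e : φ x = 0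
    · rw [e, exp_zero, one_smul]
    · simp [ht x e]

end Crest.Agent.X212.Rinv39
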